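import Vale.Agent.N141.CE0
import Vale.Agent.N141.Wk3
import Vale.Agent.N141.FaceB
import Vale.Agent.N141.Ext4

/-!
# P141: the trilinear Hilbert transform on the closed local `L²` range
-/

open MeasureTheory Set Filter Topology
open scoped ENNReal SchwartzMap
open Vale.Agent.P141 Vale.Agent.N141

namespace Vale.Agent.Results.P141.A0Range

/-- The quasi-norm of weak `L^r`: the supremum over `l > 0` of `l |{|F| > l}|^(1/r)`. -/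
noncomputable def weakNorm (F : ℝ → ℂ) (r : ℝ≥0∞) : ℝ≥0∞ :=
  ⨆ (l : ℝ) (_ : 0 < l), ENNReal.ofReal l * volume {x | l < ‖F x‖} ^ (1 / r.toReal)

/-- For the size `N` of functions (here the weak `L^r` quasi-norm) and all `f_i` in `L^(p_i)`:
the integrals defining the truncations converge absolutely for almost every `x`, the truncations
are bounded with one constant, and they converge for `N` to a function `F` with the same bound,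
which is the pointwise limit if that exists almost everywhere. -/
def ConvergesIn (N : (ℝ → ℂ) → ℝ≥0∞) (p₁ p₂ p₃ : ℝ≥0∞) : Prop :=
  ∃ C : ℝ≥0∞, C < ∞ ∧ ∀ f₁ f₂ f₃ : ℝ → ℂ, MemLp f₁ p₁ volume → MemLp f₂ p₂ volume →
    MemLp f₃ p₃ volume →
    (∀ᵐ x, ∀ ε R : ℝ, 0 < ε → IntegrableOn
      (fun t : ℝ => f₁ (x - t) * f₂ (x - 2 * t) * f₃ (x - 3 * t) / (t : ℂ))
      {t : ℝ | ε < |t| ∧ |t| < R}) ∧
    (∀ ε R : ℝ, 0 < ε → ε < R → N (truncTHT f₁ f₂ f₃ ε R) ≤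
      C * eLpNorm f₁ p₁ volume * eLpNorm f₂ p₂ volume * eLpNorm f₃ p₃ volume) ∧
    ∃ F : ℝ → ℂ, AEStronglyMeasurable F volume ∧
      N F ≤ C * eLpNorm f₁ p₁ volume * eLpNorm f₂ p₂ volume * eLpNorm f₃ p₃ volume ∧
      Tendsto (fun q : ℝ × ℝ => N (truncTHT f₁ f₂ f₃ q.1 q.2 - F)) (𝓝[>] (0 : ℝ) ×ˢ atTop) (𝓝 0) ∧
      ∀ G : ℝ → ℂ, (∀ᵐ x, Tendsto (fun q : ℝ × ℝ => truncTHT f₁ f₂ f₃ q.1 q.2 x)
        (𝓝[>] (0 : ℝ) ×ˢ atTop) (𝓝 (G x))) → F =ᵐ[volume] G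

/-- **The trilinear Hilbert transform on the closed local `L²` range.**

(1) Weak type on the closed range `2 ≤ p₁, p₂, p₃`, `r < 2`.  (2) Strong bounds with one function
restricted to a set, for `2 ≤ p₁, p₂, p₃`, `r ≤ 2`.  (3), (4) Domination by maximal functions. -/
theorem result :
    (∀ p₁ p₂ p₃ r : ℝ≥0∞, IsHolderTuple p₁ p₂ p₃ r → 2 ≤ p₁ → 2 ≤ p₂ → 2 ≤ p₃ → r < 2 →
      (∃ C : ℝ≥0∞, C < ∞ ∧ ∀ f₁ f₂ f₃ : 𝓢(ℝ, ℂ), weakNorm (THT f₁ f₂ f₃) r ≤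
        C * eLpNorm f₁ p₁ volume * eLpNorm f₂ p₂ volume * eLpNorm f₃ p₃ volume) ∧
      ConvergesIn (fun F => weakNorm F r) p₁ p₂ p₃) ∧
    (∀ (p : Fin 3 → ℝ≥0∞) (r : ℝ≥0∞), IsHolderTuple (p 0) (p 1) (p 2) r → (∀ i, 2 ≤ p i) → r ≤ 2 →
      ∀ j : Fin 3, 2 < p j → p j < ∞ → ∃ C : ℝ≥0∞, C < ∞ ∧
        ∀ f : Fin 3 → 𝓢(ℝ, ℂ), ∀ F : Set ℝ, volume F < ∞ → (∀ x, ‖f j x‖ ≤ F.indicator 1 x) →
          (∀ ε R : ℝ, 0 < ε → ε < R → eLpNorm (truncTHT (f 0) (f 1) (f 2) ε R) r volume ≤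
            C * volume F ^ (1 / (p j).toReal) *
              ∏ i ∈ Finset.univ.erase j, eLpNorm (f i) (p i) volume) ∧
          eLpNorm (THT (f 0) (f 1) (f 2)) r volume ≤ C * volume F ^ (1 / (p j).toReal) *
            ∏ i ∈ Finset.univ.erase j, eLpNorm (f i) (p i) volume) ∧
    (∀ r : ℝ, 0 < r → r < 2 → ∃ C : ℝ≥0∞, C < ∞ ∧ ∀ f₁ f₂ f₃ : 𝓢(ℝ, ℂ),
      (∀ ε R : ℝ, 0 < ε → ε < R → ∫⁻ x, ‖truncTHT f₁ f₂ f₃ ε R x‖ₑ ^ r ≤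
        C * ∫⁻ x, (M2 f₁ x * M2 f₂ x * M2 f₃ x) ^ r) ∧
      ∫⁻ x, ‖THT f₁ f₂ f₃ x‖ₑ ^ r ≤ C * ∫⁻ x, (M2 f₁ x * M2 f₂ x * M2 f₃ x) ^ r) ∧
    (∀ r : ℝ, 0 < r → r ≤ 1 → ∃ C : ℝ≥0∞, C < ∞ ∧
      ∀ (f₁ f₂ f₃ : 𝓢(ℝ, ℂ)) (g : ℝ → ℂ), Measurable g →
        (∀ ε R : ℝ, 0 < ε → ε < R → ∫⁻ x, ‖g x * truncTHT f₁ f₂ f₃ ε R x‖ₑ ^ r ≤
          C * ∫⁻ x, (M2 g x * M2 f₁ x * M2 f₂ x * M2 f₃ x) ^ r) ∧
        ∫⁻ x, ‖g x * THT f₁ f₂ f₃ x‖ₑ ^ r ≤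
          C * ∫⁻ x, (M2 g x * M2 f₁ x * M2 f₂ x * M2 f₃ x) ^ r) := by
  obtain ⟨P, hP, H⟩ := rootQ2
  refine ⟨fun p₁ p₂ p₃ r h a b c d => ⟨?_, ?_⟩,
    fun p r h a b j c d => Face.restricted hP H p r h a b j c d,
    fun _ a b => Lr_M2 hP H a b, fun _ a b => dom_M2 hP H a b⟩
  · obtain ⟨C, hC, HC⟩ := weak_closed hP H h a b c d
    exact ⟨C, hC, fun f₁ f₂ f₃ => iSup₂_le fun l hl => (HC f₁ f₂ f₃ l hl).2⟩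
  · obtain ⟨C, hC, HC⟩ := Ext.ext_weak (fun q₁ q₂ q₃ s k a' b' c' d' => by
      obtain ⟨C, hC, HC⟩ := weak_closed hP H k a' b' c' d'
      exact ⟨C, hC, fun f₁ f₂ f₃ l hl => (HC f₁ f₂ f₃ l hl).1⟩) h a b c d
    exact ⟨C, hC, fun f₁ f₂ f₃ k₁ k₂ k₃ =>
      ⟨Ext.ae_integrable a b c k₁ k₂ k₃, HC f₁ f₂ f₃ k₁ k₂ k₃⟩⟩

end Vale.Agent.Results.P141.A0Range
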