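import Vale.Agent.N141X.Main

/-!
# P141: the shape of the set of tuples at which the trilinear Hilbert transform is bounded

Boundedness at some tuples is in the starting file `LocalL2Boundedness` and is not stated here.
-/

open scoped ENNReal
open Vale.Agent.P141 Vale.Agent.N141W

namespace Vale.Agent.Results.P141.A0Transfer

/-- (1) The four models are equivalent at each tuple.  (2) Symmetry and (3) convexity of the set of
tuples at which `T` is bounded. -/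
theorem result :
    (∀ p₁ p₂ p₃ r : ℝ≥0∞, IsHolderTuple p₁ p₂ p₃ r →
      (BoundedAt p₁ p₂ p₃ r ↔ TruncBounded p₁ p₂ p₃ r) ∧
      (BoundedAt p₁ p₂ p₃ r ↔ DiscBounded p₁ p₂ p₃ r) ∧
      (BoundedAt p₁ p₂ p₃ r ↔ ErgBounded p₁ p₂ p₃ r)) ∧
    (∀ p₀ p₁ p₂ p₃ r s : ℝ≥0∞, IsHolderTuple p₁ p₂ p₃ r → IsHolderTuple p₂ p₁ p₀ s →
      p₀⁻¹ + r⁻¹ = 1 → (BoundedAt p₁ p₂ p₃ r ↔ BoundedAt p₂ p₁ p₀ s)) ∧
    Convex ℝ {u : ℝ × ℝ × ℝ | ∃ p₁ p₂ p₃ r : ℝ≥0∞, IsHolderTuple p₁ p₂ p₃ r ∧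
      BoundedAt p₁ p₂ p₃ r ∧ u = ((p₁⁻¹).toReal, (p₂⁻¹).toReal, (p₃⁻¹).toReal)} :=
  ⟨fun _ _ _ _ => Vale.Agent.N141X.models, fun _ _ _ _ _ _ => bdd_symm,
    Vale.Agent.N141X.convex_all⟩

end Vale.Agent.Results.P141.A0Transfer
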